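import Vale.Agent.P073.TME779.Defs
import Vale.Agent.P073.PA644.Phi2
import Vale.Agent.P073.H894.TMBalls

/-!
# P073, block TM-E: the combinatorial part (`SpecC`)
-/

open Set Metric Topology Filter

namespace P073.TME779

open P073 PR720 PA691 P073.PA644
open Vale.Agent.P073.St (V IsInv)

variable {Λ : Set V} {v : V} {K : BoxCx Λ v} (s : K.Sizes) {c : ℝ}

theorem mem_cball {y : V} {x : V} {t : ℝ} (ht : 0 ≤ t) :
    x ∈ closedBall y t ↔ ∀ k, |x k - y k| ≤ t := by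
  rw [mem_closedBall, dist_pi_le_iff ht]
  simp only [Real.dist_eq]

theorem mem_oball {y : V} {x : V} {t : ℝ} (ht : 0 < t) :
    x ∈ ball y t ↔ ∀ k, |x k - y k| < t := by
  rw [mem_ball, dist_pi_lt_iff ht]
  simp only [Real.dist_eq]

theorem mem_cube {p : K.T} {x : V} : x ∈ K.cube p ↔ ∀ j, K.lo p j ≤ x j ∧ x j ≤ K.hi p j := by
  show x ∈ Icc _ _ ↔ _
  rw [mem_Icc, Pi.le_def, Pi.le_def, ← forall_and]

theorem beam_sub (hc : c ∈ Ioo (1/2:ℝ) 1) {e : K.G} {x : V} (hx : x ∈ s.beam c e) :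
    x ∈ K.nb e (2 * s.q e) := by
  have hq := s.q_pos e
  intro k
  have h : K.w (K.a e) k - c * s.q e ≤ x k ∧ x k ≤ K.w (K.b e) k + c * s.q e := hx k
  have h2 := hc.2
  constructor <;> nlinarith [h.1, h.2]

theorem box_sub (hc : c ∈ Ioo (1/2:ℝ) 1) {i : K.W} {x : V} (hx : x ∈ s.box c i) :
    x ∈ closedBall (K.w i) (2 * s.r i) :=
  closedBall_subset_closedBall (by have := s.r_pos i; nlinarith [hc.2]) hx

theorem mem_box (hc : c ∈ Ioo (1/2:ℝ) 1) {i : K.W} {x : V} :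
    x ∈ s.box c i ↔ ∀ k, |x k - K.w i k| ≤ c * s.r i :=
  mem_cball (by have := s.r_pos i; nlinarith [hc.1])

/-- near the end `a` -/
theorem lt_of_ball_a {e : K.G} {x : V} (h : x ∈ ball (K.w (K.a e)) (s.r (K.a e) / 2)) :
    x (K.dir e) < K.w (K.a e) (K.dir e) + s.r (K.a e) / 2 := by
  have hr := s.r_pos (K.a e)
  have := (mem_oball (by linarith)).1 h (K.dir e)
  linarith [(abs_lt.1 this).2]

theorem lt_of_ball_b {e : K.G} {x : V} (h : x ∈ ball (K.w (K.b e)) (s.r (K.b e) / 2)) :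
    K.w (K.b e) (K.dir e) - s.r (K.b e) / 2 < x (K.dir e) := by
  have hr := s.r_pos (K.b e)
  have := (mem_oball (by linarith)).1 h (K.dir e)
  linarith [(abs_lt.1 this).1]

/-- a vertex box and a beam -/
theorem box_beam (hc : c ∈ Ioo (1/2:ℝ) 1) {i : K.W} {e : K.G} {x : V} (hi : x ∈ s.box c i)
    (he : x ∈ s.beam c e) :
    (i = K.a e ∧ x (K.dir e) ≤ K.w (K.a e) (K.dir e) + c * s.r (K.a e)) ∨
    (i = K.b e ∧ K.w (K.b e) (K.dir e) - c * s.r (K.b e) ≤ x (K.dir e)) := by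
  rcases s.U_edge i e x (box_sub s hc hi) (beam_sub s hc he) with rfl | rfl
  · left
    have := (mem_box s hc).1 hi (K.dir e)
    exact ⟨rfl, by linarith [(abs_le.1 this).2]⟩
  · right
    have := (mem_box s hc).1 hi (K.dir e)
    exact ⟨rfl, by linarith [(abs_le.1 this).1]⟩

/-- numbers on an edge -/
theorem nums (hc : c ∈ Ioo (1/2:ℝ) 1) (e : K.G) :
    K.w (K.a e) (K.dir e) + s.r (K.a e) / 2 < K.w (K.a e) (K.dir e) + c * s.r (K.a e) ∧
    K.w (K.a e) (K.dir e) + c * s.r (K.a e) < s.ca e ∧ s.ca e < s.cb e ∧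
    s.cb e < K.w (K.b e) (K.dir e) - c * s.r (K.b e) ∧
    K.w (K.b e) (K.dir e) - c * s.r (K.b e) < K.w (K.b e) (K.dir e) - s.r (K.b e) / 2 := by
  have h1 := s.r_pos (K.a e)
  have h2 := s.r_pos (K.b e)
  have h3 := s.ca_lt_cb' e
  have h4 := hc.1
  have h5 := hc.2
  refine ⟨by nlinarith, ?_, h3, ?_, by nlinarith⟩
  · unfold BoxCx.Sizes.ca; nlinarith
  · unfold BoxCx.Sizes.cb; nlinarith

theorem box_G (hc : c ∈ Ioo (1/2:ℝ) 1) (i : K.W) (e : K.G) (x : V) (hx : x ∈ s.box c i) :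
    x ∉ s.RG c e := by
  rintro ⟨h1, h2, h3⟩
  have hn := nums s hc e
  rcases box_beam s hc hx h1 with ⟨_, h⟩ | ⟨_, h⟩ <;> linarith [hn.2.1, hn.2.2.2.1]

theorem GG (hc : c ∈ Ioo (1/2:ℝ) 1) (e e' : K.G) (x : V) (hx : x ∈ s.beam c e)
    (hx' : x ∈ s.RG c e') : e' = e := by
  by_contra hne
  obtain ⟨h1, h2, h3⟩ := hx'
  have hn := nums s hc e'
  obtain ⟨i, hi, -, hb⟩ := s.tube_disj e' e hne x (beam_sub s hc h1) (beam_sub s hc hx)
  rcases hi with rfl | rfl
  · linarith [lt_of_ball_a s hb, hn.1, hn.2.1]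
  · linarith [lt_of_ball_b s hb, hn.2.2.2.1, hn.2.2.2.2]

/-- the stubs -/
def Stub (c : ℝ) (e : K.G) (i : K.W) (x : V) : Prop :=
  x ∈ s.beam c e ∧ ((K.a e = i ∧ x (K.dir e) ≤ s.ca e) ∨ (K.b e = i ∧ s.cb e ≤ x (K.dir e)))

theorem mem_RV {i : K.W} {x : V} : x ∈ s.RV c i ↔ x ∈ s.box c i ∨ ∃ e, Stub s c e i x := by
  constructor
  · rintro ((h | h) | h)
    · exact Or.inl h
    · simp only [mem_iUnion] at h
      obtain ⟨e, he, h⟩ := h
      exact Or.inr ⟨e, h.1, Or.inl ⟨he, h.2⟩⟩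
    · simp only [mem_iUnion] at h
      obtain ⟨e, he, h⟩ := h
      exact Or.inr ⟨e, h.1, Or.inr ⟨he, h.2⟩⟩
  · rintro (h | ⟨e, h, ⟨h1, h2⟩ | ⟨h1, h2⟩⟩)
    · exact Or.inl (Or.inl h)
    · refine Or.inl (Or.inr ?_)
      simp only [mem_iUnion]
      exact ⟨e, h1, h, h2⟩
    · refine Or.inr ?_
      simp only [mem_iUnion]
      exact ⟨e, h1, h, h2⟩

/-- a point of a stub which is close to a vertex of the edge -/
theorem stub_near (hc : c ∈ Ioo (1/2:ℝ) 1) {e : K.G} {i i' : K.W} {x : V} (h : Stub s c e i x)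
    (hi' : i' = K.a e ∨ i' = K.b e) (hb : x ∈ ball (K.w i') (s.r i' / 2)) : i' = i := by
  have hn := nums s hc e
  obtain ⟨-, ⟨rfl, h1⟩ | ⟨rfl, h1⟩⟩ := h
  · rcases hi' with rfl | rfl
    · rfl
    · linarith [lt_of_ball_b s hb]
  · rcases hi' with rfl | rfl
    · linarith [lt_of_ball_a s hb]
    · rfl

theorem box_stub (hc : c ∈ Ioo (1/2:ℝ) 1) {e : K.G} {i i' : K.W} {x : V} (hi : x ∈ s.box c i)
    (h : Stub s c e i' x) : i = i' := by
  have hn := nums s hc e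
  have h2 := box_beam s hc hi h.1
  obtain ⟨-, ⟨rfl, h1⟩ | ⟨rfl, h1⟩⟩ := h
  · rcases h2 with ⟨h2, _⟩ | ⟨_, h2⟩
    · exact h2
    · linarith
  · rcases h2 with ⟨_, h2⟩ | ⟨h2, _⟩
    · linarith
    · exact h2

theorem VV (hc : c ∈ Ioo (1/2:ℝ) 1) (i i' : K.W) (x : V) (hx : x ∈ s.RV c i)
    (hx' : x ∈ s.RV c i') : i' = i := by
  rw [mem_RV] at hx hx'
  rcases hx with hx | ⟨e, he⟩ <;> rcases hx' with hx' | ⟨e', he'⟩
  · by_contra hne
    exact Set.disjoint_left.1 (s.U_disj i' i hne) (box_sub s hc hx') (box_sub s hc hx)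
  · exact (box_stub s hc hx he').symm
  · exact box_stub s hc hx' he
  · by_cases hee : e = e'
    · subst hee
      have hn := nums s hc e
      obtain ⟨-, ⟨rfl, h1⟩ | ⟨rfl, h1⟩⟩ := he <;> obtain ⟨-, ⟨rfl, h2⟩ | ⟨rfl, h2⟩⟩ := he'
      · rfl
      · linarith
      · linarith
      · rfl
    · obtain ⟨j, hj, hj', hb⟩ := s.tube_disj e e' hee x (beam_sub s hc he.1) (beam_sub s hc he'.1)
      rw [← stub_near s hc he hj hb, ← stub_near s hc he' hj' hb]

theorem mid_V (hc : c ∈ Ioo (1/2:ℝ) 1) (e : K.G) (i : K.W) (x : V) (hx : x ∈ s.RG c e)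
    (h1 : s.ca e < x (K.dir e)) (h2 : x (K.dir e) < s.cb e) : x ∉ s.RV c i := by
  rw [mem_RV]
  rintro (h | ⟨e', he', h⟩)
  · exact box_G s hc i e x h hx
  · have : e = e' := GG s hc e' e x he' hx
    subst this
    rcases h with ⟨_, h⟩ | ⟨_, h⟩ <;> linarith

/-- membership of `F`, uniform -/
theorem mem_F_iff (hc : 0 < c) {x : V} :
    x ∈ s.F c ↔ (∃ α, PH.val s α x ≤ c) ∧ ∀ α, c ≤ PH.val s α x := by
  show x ∈ s.H c ∧ x ∉ s.Hin c ↔ _
  rw [PH.mem_H_iff s hc.le, PH.mem_Hin_iff s hc]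
  push Not
  rfl

theorem side_F (hc : c ∈ Ioo (1/2:ℝ) 1) (e : K.G) : side s c e ⊆ s.F c := by
  have hc0 : 0 < c := by linarith [hc.1]
  rintro x ⟨h1, h2, h3, h4⟩
  have hn := nums s hc e
  refine ⟨Or.inr (mem_iUnion.2 ⟨e, h1⟩), ?_⟩
  rintro (h | h)
  · obtain ⟨i, hi⟩ := mem_iUnion.1 h
    have h5 : x ∈ s.box c i := ball_subset_closedBall hi
    have hr := s.r_pos i
    have h6 := (mem_oball (by positivity)).1 hi (K.dir e)
    rcases box_beam s hc h5 h1 with ⟨rfl, h⟩ | ⟨rfl, h⟩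
    · linarith [(abs_lt.1 h6).2]
    · linarith [(abs_lt.1 h6).1]
  · obtain ⟨e', he'⟩ := mem_iUnion.1 h
    by_cases hee : e = e'
    · subst hee; exact h2 he'
    · have h5 : x ∈ s.beam c e' := fun k => ⟨(he' k).1.le, (he' k).2.le⟩
      obtain ⟨j, hj, -, hb⟩ := s.tube_disj e e' hee x (beam_sub s hc h1) (beam_sub s hc h5)
      rcases hj with rfl | rfl
      · linarith [lt_of_ball_a s hb]
      · linarith [lt_of_ball_b s hb]

theorem side_tile (hc : c ∈ Ioo (1/2:ℝ) 1) (e : K.G) (p : K.T) (x : V) (hx : x ∈ side s c e)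
    (hp : x ∈ K.cube p) : K.edge e ⊆ K.cube p := by
  obtain ⟨h1, -, h3, h4⟩ := hx
  have hn := nums s hc e
  refine (s.tube_tile e p x (beam_sub s hc h1) hp (fun h => ?_) (fun h => ?_)).1
  · linarith [lt_of_ball_a s h]
  · linarith [lt_of_ball_b s h]

theorem side_or_box (hc : c ∈ Ioo (1/2:ℝ) 1) {e : K.G} {x : V} (hx : x ∈ s.beam c e)
    (hF : x ∈ s.F c) : x ∈ s.box c (K.a e) ∨ x ∈ s.box c (K.b e) ∨ x ∈ side s c e := by
  have hc0 : 0 < c := by linarith [hc.1]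
  have hq := s.q_pos e
  have hqr := s.q_le e
  have hno : x ∉ K.nbo e (c * s.q e) := fun h => hF.2 (Or.inr (mem_iUnion.2 ⟨e, h⟩))
  by_cases h3 : K.w (K.a e) (K.dir e) + c * s.r (K.a e) ≤ x (K.dir e)
  · by_cases h4 : x (K.dir e) ≤ K.w (K.b e) (K.dir e) - c * s.r (K.b e)
    · exact Or.inr (Or.inr ⟨hx, hno, h3, h4⟩)
    · right; left
      rw [mem_box s hc]
      intro k
      have h5 : K.w (K.a e) k - c * s.q e ≤ x k ∧ x k ≤ K.w (K.b e) k + c * s.q e := hx k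
      rw [abs_le]
      by_cases hk : k = K.dir e
      · subst hk
        constructor
        · linarith
        · nlinarith [h5.2]
      · rw [K.ab_off e k hk] at h5
        constructor <;> nlinarith [h5.1, h5.2]
  · left
    rw [mem_box s hc]
    intro k
    have h5 : K.w (K.a e) k - c * s.q e ≤ x k ∧ x k ≤ K.w (K.b e) k + c * s.q e := hx k
    rw [abs_le]
    by_cases hk : k = K.dir e
    · subst hk
      constructor
      · nlinarith [h5.1]
      · linarith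
    · rw [← K.ab_off e k hk] at h5
      constructor <;> nlinarith [h5.1, h5.2]

theorem cases_V (hc : c ∈ Ioo (1/2:ℝ) 1) (i : K.W) (x : V) (hx : x ∈ s.RV c i) (hF : x ∈ s.F c) :
    x ∈ s.box c i ∨ (∃ e, K.a e = i ∧ x ∈ side s c e ∧ x (K.dir e) ≤ s.ca e) ∨
    ∃ e, K.b e = i ∧ x ∈ side s c e ∧ s.cb e ≤ x (K.dir e) := by
  rw [mem_RV] at hx
  rcases hx with hx | ⟨e, he⟩
  · exact Or.inl hx
  · rcases side_or_box s hc he.1 hF with h | h | h
    · left
      rw [← box_stub s hc h he]; exact h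
    · left
      rw [← box_stub s hc h he]; exact h
    · obtain ⟨-, ⟨h1, h2⟩ | ⟨h1, h2⟩⟩ := he
      · exact Or.inr (Or.inl ⟨e, h1, h, h2⟩)
      · exact Or.inr (Or.inr ⟨e, h1, h, h2⟩)

theorem cases_G (hc : c ∈ Ioo (1/2:ℝ) 1) (e : K.G) (x : V) (hx : x ∈ s.RG c e)
    (hF : x ∈ s.F c) : x ∈ side s c e := by
  rcases side_or_box s hc hx.1 hF with h | h | h
  · exact absurd hx (box_G s hc _ e x h)
  · exact absurd hx (box_G s hc _ e x h)
  · exact h

theorem cases_H (x : V) (hx : x ∈ s.H c) : (∃ i, x ∈ s.RV c i) ∨ ∃ e, x ∈ s.RG c e := by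
  rcases hx with h | h
  · obtain ⟨i, hi⟩ := mem_iUnion.1 h
    exact Or.inl ⟨i, (mem_RV s).2 (Or.inl hi)⟩
  · obtain ⟨e, he⟩ := mem_iUnion.1 h
    by_cases h1 : x (K.dir e) ≤ s.ca e
    · exact Or.inl ⟨K.a e, (mem_RV s).2 (Or.inr ⟨e, he, Or.inl ⟨rfl, h1⟩⟩)⟩
    · by_cases h2 : s.cb e ≤ x (K.dir e)
      · exact Or.inl ⟨K.b e, (mem_RV s).2 (Or.inr ⟨e, he, Or.inr ⟨rfl, h2⟩⟩)⟩
      · exact Or.inr ⟨e, he, (not_le.1 h1).le, (not_le.1 h2).le⟩

/-! ### the squares -/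

theorem sq_data (t : K.S) (k : Fin 3) :
    K.slo t k = max (K.lo (K.sm t) k) (K.lo (K.sp t) k) ∧
    K.shi t k = min (K.hi (K.sm t) k) (K.hi (K.sp t) k) := by
  have hle : ∀ j, K.slo t j ≤ K.shi t j := by
    intro j
    by_cases hj : j = K.nrm t
    · rw [hj]; exact (K.s_flat t).le
    · exact (K.s_lt t j hj).le
  have h := K.s_eq t
  rw [Set.Icc_inter_Icc] at h
  have hne : K.slo t ≤ K.shi t := hle
  have h1 := (Set.Icc_eq_Icc_iff hne).1 h
  constructor
  · have := congrFun h1.1 k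
    simpa using this
  · have := congrFun h1.2 k
    simpa using this

/-- the margin of a square is small -/
theorem mu_small (t : K.S) (k : Fin 3) (hk : k ≠ K.nrm t) :
    4 * s.μ t < K.shi t k - K.slo t k := by
  have hle : ∀ j, K.slo t j ≤ K.shi t j := by
    intro j
    by_cases hj : j = K.nrm t
    · rw [hj]; exact (K.s_flat t).le
    · exact (K.s_lt t j hj).le
  have hmem : K.slo t ∈ Icc (K.slo t) (K.shi t) := ⟨le_rfl, hle⟩
  obtain ⟨e, he, hxe⟩ := K.sq_bd t (K.slo t) hmem ⟨k, hk, Or.inl rfl⟩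
  have hab : K.w (K.a e) ≤ K.w (K.b e) := by
    intro j
    by_cases hj : j = K.dir e
    · rw [hj]; exact (K.ab_dir e).le
    · exact (K.ab_off e j hj).le
  have hwa : K.w (K.a e) ∈ Icc (K.slo t) (K.shi t) := he ⟨le_rfl, hab⟩
  -- the lowest corner is the vertex `a e`
  have h1 : K.w (K.a e) = K.slo t := le_antisymm hxe.1 hwa.1
  have hμ := s.μ_lt t e he
  have hq := (s.q_le e).1
  have hr := s.r_pos (K.a e)
  have hself : K.w (K.a e) ∈ closedBall (K.w (K.a e)) (2 * s.r (K.a e)) :=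
    mem_closedBall_self (by linarith)
  have hm : K.w (K.a e) ∈ Icc (K.lo (K.sm t)) (K.hi (K.sm t)) ∩ Icc (K.lo (K.sp t)) (K.hi (K.sp t)) := by
    rw [← K.s_eq t]; exact hwa
  have hU1 := (s.U_tile (K.a e) (K.sm t) _ hself hm.1).2 k
  have hU2 := (s.U_tile (K.a e) (K.sp t) _ hself hm.2).2 k
  have hlt := K.s_lt t k hk
  have hd := sq_data t k
  have h2 : K.w (K.a e) k ≠ K.hi (K.sm t) k := by
    rw [h1]
    have := min_le_left (K.hi (K.sm t) k) (K.hi (K.sp t) k)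
    rw [← hd.2] at this
    linarith
  have h3 : K.w (K.a e) k ≠ K.hi (K.sp t) k := by
    rw [h1]
    have := min_le_right (K.hi (K.sm t) k) (K.hi (K.sp t) k)
    rw [← hd.2] at this
    linarith
  have h4 := hU1.2 h2
  have h5 := hU2.2 h3
  rw [h1] at h4 h5
  have h6 : K.slo t k + 2 * s.r (K.a e) < K.shi t k := by
    rw [hd.2]; exact lt_min h4 h5
  linarith

theorem par_square_mem (t : K.S) {y : P2} (hy : y ∈ Q0) :
    s.par c (.inr t) y ∈ K.sq t := by
  have hy' : ∀ j, |y j| ≤ 1 := by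
    intro j
    have h1 : ‖y‖ ≤ 1 := by simpa using hy
    exact (norm_le_pi_norm y j).trans h1
  show _ ∈ Icc _ _
  rw [mem_Icc, Pi.le_def, Pi.le_def, ← forall_and]
  intro k
  rw [BoxCx.Sizes.par]
  refine Fin.succAboveCases (K.nrm t) ?_ ?_ k
  · simp only [Fin.insertNth_apply_same]
    exact ⟨le_rfl, (K.s_flat t).le⟩
  · intro j
    simp only [Fin.insertNth_apply_succAbove]
    set k' := (K.nrm t).succAbove j
    have hk' : k' ≠ K.nrm t := Fin.succAbove_ne _ _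
    have h1 := mu_small s t k' hk'
    have h2 := s.μ_pos t
    have h3 := abs_le.1 (hy' j)
    set A := (K.shi t k' - K.slo t k') / 2 - s.μ t with hA
    have hA0 : 0 ≤ A := by rw [hA]; linarith
    constructor
    · nlinarith [h3.1, h3.2]
    · nlinarith [h3.1, h3.2]

theorem off (hc : c ∈ Ioo (1/2:ℝ) 1) (d : BoxCx.Sizes.D K) (y : P2) (hy : y ∈ s.ζ c d) :
    (∃ p p', p ≠ p' ∧ s.par c d y ∈ K.cube p ∧ s.par c d y ∈ K.cube p') ∨
    ∃ e i, s.par c d y ∈ s.RG c e ∧ s.par c d y ∈ s.RV c i := by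
  rcases d with ⟨e, β⟩ | t
  · right
    have hq := s.q_pos e
    have hy0 : ‖y‖ = 1 / 2 := by
      have : y ∈ sphere (0 : P2) (1 / 2) := hy
      simpa using this
    have hy' : ∀ j, |y j| ≤ 1 / 2 := fun j => hy0 ▸ norm_le_pi_norm y j
    have hn := nums s hc e
    have hdir : s.par c (.inl (e, β)) y (K.dir e) = if β then s.cb e else s.ca e := by
      rw [BoxCx.Sizes.par]
      simp only [Fin.insertNth_apply_same]
    have hbeam : s.par c (.inl (e, β)) y ∈ s.beam c e := by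
      intro k
      by_cases hk : k = K.dir e
      · subst hk
        rw [hdir]
        have h1 := s.r_pos (K.a e)
        have h2 := s.r_pos (K.b e)
        have h4 := hc.1
        have h5 : 0 < c * s.q e := by have := hc.1; positivity
        have h6 : 0 < c * s.r (K.a e) := by have := hc.1; positivity
        have h7 : 0 < c * s.r (K.b e) := by have := hc.1; positivity
        cases β
        · simp only [Bool.false_eq_true, if_false]
          constructor <;> linarith [hn.2.1, hn.2.2.1, hn.2.2.2.1]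
        · simp only [if_true]
          constructor <;> linarith [hn.2.1, hn.2.2.1, hn.2.2.2.1]
      · obtain ⟨j, rfl⟩ := Fin.exists_succAbove_eq hk
        have h1 : s.par c (.inl (e, β)) y ((K.dir e).succAbove j) =
            K.w (K.a e) ((K.dir e).succAbove j) + 2 * (c * s.q e) * y j := by
          rw [BoxCx.Sizes.par]
          simp only [Fin.insertNth_apply_succAbove]
        rw [h1, ← K.ab_off e _ hk]
        have h3 := abs_le.1 (hy' j)
        have h5 : 0 < c * s.q e := by have := hc.1; positivity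
        constructor <;> nlinarith [h3.1, h3.2]
    cases β
    · refine ⟨e, K.a e, ⟨hbeam, ?_, ?_⟩, (mem_RV s).2 (Or.inr ⟨e, hbeam, Or.inl ⟨rfl, ?_⟩⟩)⟩
      · rw [hdir]; simp
      · rw [hdir]; simpa using hn.2.2.1.le
      · rw [hdir]; simp
    · refine ⟨e, K.b e, ⟨hbeam, ?_, ?_⟩, (mem_RV s).2 (Or.inr ⟨e, hbeam, Or.inr ⟨rfl, ?_⟩⟩)⟩
      · rw [hdir]; simpa using hn.2.2.1.le
      · rw [hdir]; simp
      · rw [hdir]; simp
  · left
    have hy1 : y ∈ Q0 := hy.1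
    have h1 := par_square_mem s (c := c) t hy1
    have h2 : s.par c (.inr t) y ∈
        Icc (K.lo (K.sm t)) (K.hi (K.sm t)) ∩ Icc (K.lo (K.sp t)) (K.hi (K.sp t)) := by
      rw [← K.s_eq t]; exact h1
    refine ⟨K.sm t, K.sp t, ?_, h2.1, h2.2⟩
    intro he
    have h3 := K.s_lev t
    have h4 := K.lt (K.sm t) (K.nrm t)
    rw [h3.1, ← h3.2, ← he] at h4
    exact lt_irrefl _ h4

theorem specC : SpecC := by
  intro Λ v K s c hc
  exact
    { ob_cube := fun p p' x hx hx' => by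
        by_contra hne
        exact K.dis p p' (Ne.symm hne) x hx hx'
      VV := VV s hc
      GG := fun e e' x hx hx' => GG s hc e e' x hx.1 hx'
      box_G := box_G s hc
      side_G := fun e e' x hx hx' => GG s hc e e' x hx.1 hx'
      mid_V := mid_V s hc
      ca_cb := s.ca_lt_cb'
      side_F := side_F s hc
      side_tile := side_tile s hc
      cases_V := cases_V s hc
      cases_G := cases_G s hc
      cases_H := cases_H s
      off := off s hc }

end P073.TME779
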