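import Vale.Agent.P073.TME779.GSeg

/-!
# P073, block TM-E: the open pieces are path connected and dense in the pieces
-/

open Set Metric Topology Filter

namespace P073.TME779

open P073 PR720 PA691
open Vale.Agent.P073.St (V IsInv)

variable {Λ : Set V} {v : V} {K : BoxCx Λ v} (s : K.Sizes) (c : ℝ)

/-- the cells inside `H` -/
def Rc : K.W ⊕ K.G → Set V := Sum.elim (s.RV c) (s.RG c)

/-- the piece of the pair -/
def Ep (p : K.T) (j : K.W ⊕ K.G) : Set V := {x | x ∈ s.F c ∧ x ∈ K.cube p ∧ x ∈ Rc s c j}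

/-- the open piece of the pair -/
def Sp (p : K.T) (j : K.W ⊕ K.G) : Set V :=
  {x | x ∈ s.F c ∧ x ∈ ob K p ∧ x ∈ Rc s c j ∧ ∀ j', j' ≠ j → x ∉ Rc s c j'}

/-- the pairs which occur -/
def Valid (p : K.T) : K.W ⊕ K.G → Prop
  | .inl i => K.w i ∈ K.cube p
  | .inr e => ∃ x, x ∈ side s c e ∧ x ∈ K.cube p

theorem ob_sub (p : K.T) : ob K p ⊆ K.cube p := fun _ hx =>
  ⟨fun k => (hx k).1.le, fun k => (hx k).2.le⟩

theorem Sp_sub (p : K.T) (j : K.W ⊕ K.G) : Sp s c p j ⊆ Ep s c p j := fun _ hx =>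
  ⟨hx.1, ob_sub p hx.2.1, hx.2.2.1⟩

variable {s c}

theorem Sp_box (C : CFacts s c) {i : K.W} {p : K.T} {x : V} (h1 : x ∈ s.box c i)
    (h2 : x ∉ s.Hin c) (h3 : x ∈ ob K p) : x ∈ Sp s c p (.inl i) := by
  have hV : x ∈ s.RV c i := Or.inl (Or.inl h1)
  refine ⟨⟨Or.inl (mem_iUnion.2 ⟨i, h1⟩), h2⟩, h3, hV, ?_⟩
  rintro (i' | e) hne hx
  · exact hne (by rw [C.VV i i' x hV hx])
  · exact C.box_G i e x h1 hx

theorem Sp_stub_a (C : CFacts s c) {e : K.G} {p : K.T} {x : V} (h1 : x ∈ side s c e)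
    (h2 : x (K.dir e) < s.ca e) (h3 : x ∈ ob K p) : x ∈ Sp s c p (.inl (K.a e)) := by
  have hV : x ∈ s.RV c (K.a e) :=
    Or.inl (Or.inr (mem_iUnion₂.2 ⟨e, rfl, h1.1, h2.le⟩))
  refine ⟨C.side_F e h1, h3, hV, ?_⟩
  rintro (i' | e') hne hx
  · exact hne (by rw [C.VV _ i' x hV hx])
  · have h4 := C.side_G e e' x h1 hx
    subst h4
    exact absurd h2 (not_lt.2 hx.2.1)

theorem Sp_stub_b (C : CFacts s c) {e : K.G} {p : K.T} {x : V} (h1 : x ∈ side s c e)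
    (h2 : s.cb e < x (K.dir e)) (h3 : x ∈ ob K p) : x ∈ Sp s c p (.inl (K.b e)) := by
  have hV : x ∈ s.RV c (K.b e) := Or.inr (mem_iUnion₂.2 ⟨e, rfl, h1.1, h2.le⟩)
  refine ⟨C.side_F e h1, h3, hV, ?_⟩
  rintro (i' | e') hne hx
  · exact hne (by rw [C.VV _ i' x hV hx])
  · have h4 := C.side_G e e' x h1 hx
    subst h4
    exact absurd h2 (not_lt.2 hx.2.2)

theorem Sp_mid (C : CFacts s c) {e : K.G} {p : K.T} {x : V} (h1 : x ∈ side s c e)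
    (h2 : s.ca e < x (K.dir e)) (h2' : x (K.dir e) < s.cb e) (h3 : x ∈ ob K p) :
    x ∈ Sp s c p (.inr e) := by
  have hG : x ∈ s.RG c e := ⟨h1.1, h2.le, h2'.le⟩
  refine ⟨C.side_F e h1, h3, hG, ?_⟩
  rintro (i' | e') hne hx
  · exact C.mid_V e i' x hG h2 h2' hx
  · exact hne (by rw [C.GG _ e' x hG hx])

theorem joined_image {A S : Set V} {f : V → V} (hf : Continuous f) (hA : ∀ x ∈ A, f x ∈ S) {x y : V}
    (h : JoinedIn A x y) : JoinedIn S (f x) (f y) := by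
  obtain ⟨γ, hγ⟩ := h
  exact ⟨γ.map hf, fun t => hA _ (hγ t)⟩

/-- the base point of the vertex pieces -/
theorem exists_cor0 {w l h : V} (hlh : ∀ k, l k < h k) (hw : w ∈ Icc l h) : (Cor w l h).Nonempty := by
  obtain ⟨σ, hσ, -⟩ := exists_cor (w := w) hlh hw
  exact ⟨σ, hσ⟩

/-- a point of the boundary of the box is joined to every corner -/
theorem box_joined (hc : c ∈ Ioo (1/2:ℝ) 1) (C : CFacts s c) {i : K.W} {p : K.T}
    (hi : K.w i ∈ K.cube p) {x : V} (hx : x ∈ s.box c i) (hxH : x ∉ s.Hin c) (hxp : x ∈ ob K p)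
    {σ₀ : V} (hσ₀ : σ₀ ∈ Cor (K.w i) (K.lo p) (K.hi p)) :
    JoinedIn (Sp s c p (.inl i)) x (zV s c i σ₀) := by
  obtain ⟨σ, hσ, hσx⟩ := exists_cor (w := K.w i) (K.lt p) (ob_sub p hxp)
  have h1 : JoinedIn (Sp s c p (.inl i)) x (zV s c i σ) := by
    refine joinedIn_of_half (Sp_box C hx hxH hxp) fun t ht => ?_
    obtain ⟨a1, a2, a3⟩ := segV s hc hi hx hxH hσ hσx ht
    exact Sp_box C a1 a2 a3
  refine h1.trans (joined_image (zV_cont s i) (fun τ hτ => ?_) (Cor.joined hσ hσ₀))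
  obtain ⟨a1, a2, a3⟩ := zV_mem s hc hi hτ
  exact Sp_box C a1 a2 a3

theorem box_closure (hc : c ∈ Ioo (1/2:ℝ) 1) (C : CFacts s c) {i : K.W} {p : K.T}
    (hi : K.w i ∈ K.cube p) {x : V} (hx : x ∈ s.box c i) (hxH : x ∉ s.Hin c) (hxp : x ∈ K.cube p) :
    x ∈ closure (Sp s c p (.inl i)) := by
  obtain ⟨σ, hσ, hσx⟩ := exists_cor (w := K.w i) (K.lt p) hxp
  refine mem_closure_of_half (y := zV s c i σ) fun t ht => ?_
  obtain ⟨a1, a2, a3⟩ := segV s hc hi hx hxH hσ hσx ht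
  exact Sp_box C a1 a2 a3

theorem dir_ne_le (hc : c ∈ Ioo (1/2:ℝ) 1) (e : K.G) :
    c * s.q e ≤ c * s.r (K.a e) ∧ c * s.q e ≤ c * s.r (K.b e) := by
  have hc0 : 0 < c := by linarith [hc.1]
  have h7 := s.q_le e
  have h8 := q_pos s e
  constructor
  · exact mul_le_mul_of_nonneg_left (by linarith [h7.1]) hc0.le
  · exact mul_le_mul_of_nonneg_left (by linarith [h7.2]) hc0.le

theorem ca_low (hc : c ∈ Ioo (1/2:ℝ) 1) (e : K.G) :
    K.w (K.a e) (K.dir e) + c * s.r (K.a e) < s.ca e := by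
  have h8 := r_pos s (K.a e)
  unfold BoxCx.Sizes.ca
  nlinarith [hc.2]

theorem cb_high (hc : c ∈ Ioo (1/2:ℝ) 1) (e : K.G) :
    s.cb e < K.w (K.b e) (K.dir e) - c * s.r (K.b e) := by
  have h8 := r_pos s (K.b e)
  unfold BoxCx.Sizes.cb
  nlinarith [hc.2]

/-- the foot of the stub at `a e` -/
theorem foot_a (hc : c ∈ Ioo (1/2:ℝ) 1) (C : CFacts s c) {e : K.G} {y : V} (hy : y ∈ side s c e)
    (hd : y (K.dir e) = K.w (K.a e) (K.dir e) + c * s.r (K.a e)) :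
    y ∈ s.box c (K.a e) ∧ y ∉ s.Hin c := by
  have hc0 : 0 < c := by linarith [hc.1]
  refine ⟨?_, (C.side_F e hy).2⟩
  rw [mem_box_iff s hc0]
  intro k
  by_cases hk : k = K.dir e
  · rw [hk, hd, add_sub_cancel_left, abs_of_pos (mul_pos hc0 (r_pos s _))]
  · exact (side_abs s hy hk).trans (dir_ne_le hc e).1

theorem foot_b (hc : c ∈ Ioo (1/2:ℝ) 1) (C : CFacts s c) {e : K.G} {y : V} (hy : y ∈ side s c e)
    (hd : y (K.dir e) = K.w (K.b e) (K.dir e) - c * s.r (K.b e)) :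
    y ∈ s.box c (K.b e) ∧ y ∉ s.Hin c := by
  have hc0 : 0 < c := by linarith [hc.1]
  refine ⟨?_, (C.side_F e hy).2⟩
  rw [mem_box_iff s hc0]
  intro k
  by_cases hk : k = K.dir e
  · rw [hk, hd, abs_sub_comm, sub_sub_cancel, abs_of_pos (mul_pos hc0 (r_pos s _))]
  · rw [← K.ab_off e k hk]
    exact (side_abs s hy hk).trans (dir_ne_le hc e).2

/-- segments from the points of the stub at `a e` -/
theorem stub_a (hc : c ∈ Ioo (1/2:ℝ) 1) (C : CFacts s c) {e : K.G} {p : K.T} {x : V}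
    (hx : x ∈ side s c e) (hxc : x (K.dir e) ≤ s.ca e) (hxp : x ∈ K.cube p) :
    ∃ y, y ∈ s.box c (K.a e) ∧ y ∉ s.Hin c ∧ y ∈ ob K p ∧
      ∀ t ∈ Ioc (0:ℝ) 1, x + t • (y - x) ∈ Sp s c p (.inl (K.a e)) := by
  have hc0 : 0 < c := by linarith [hc.1]
  obtain ⟨σ, hσ, hσx⟩ := exists_cor (w := K.w (K.a e)) (K.lt p) hxp
  have hlow := ca_low (s := s) hc e
  have hm2 : K.w (K.a e) (K.dir e) + c * s.r (K.a e) ≤
      K.w (K.b e) (K.dir e) - c * s.r (K.b e) := hx.2.2.1.trans hx.2.2.2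
  have hseg : ∀ t ∈ Ioc (0:ℝ) 1, _ := fun t ht =>
    segG s hc hx hxp (m := K.w (K.a e) (K.dir e) + c * s.r (K.a e)) le_rfl hm2 hσ hσx ht
  refine ⟨zG s c e (K.w (K.a e) (K.dir e) + c * s.r (K.a e)) σ, ?_, ?_, ?_, fun t ht => ?_⟩
  · have h1 := hseg 1 ⟨one_pos, le_rfl⟩
    rw [one_smul, add_sub_cancel] at h1
    exact (foot_a hc C h1.1 (zG_dir s e _ σ)).1
  · have h1 := hseg 1 ⟨one_pos, le_rfl⟩
    rw [one_smul, add_sub_cancel] at h1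
    exact (foot_a hc C h1.1 (zG_dir s e _ σ)).2
  · have h1 := hseg 1 ⟨one_pos, le_rfl⟩
    rw [one_smul, add_sub_cancel] at h1
    exact h1.2.1
  · obtain ⟨a1, a2, a3⟩ := hseg t ht
    refine Sp_stub_a C a1 ?_ a2
    rw [a3]
    nlinarith [ht.1, ht.2]

theorem stub_b (hc : c ∈ Ioo (1/2:ℝ) 1) (C : CFacts s c) {e : K.G} {p : K.T} {x : V}
    (hx : x ∈ side s c e) (hxc : s.cb e ≤ x (K.dir e)) (hxp : x ∈ K.cube p) :
    ∃ y, y ∈ s.box c (K.b e) ∧ y ∉ s.Hin c ∧ y ∈ ob K p ∧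
      ∀ t ∈ Ioc (0:ℝ) 1, x + t • (y - x) ∈ Sp s c p (.inl (K.b e)) := by
  have hc0 : 0 < c := by linarith [hc.1]
  obtain ⟨σ, hσ, hσx⟩ := exists_cor (w := K.w (K.a e)) (K.lt p) hxp
  have hlow := cb_high (s := s) hc e
  have hm2 : K.w (K.a e) (K.dir e) + c * s.r (K.a e) ≤
      K.w (K.b e) (K.dir e) - c * s.r (K.b e) := hx.2.2.1.trans hx.2.2.2
  have hseg : ∀ t ∈ Ioc (0:ℝ) 1, _ := fun t ht =>
    segG s hc hx hxp (m := K.w (K.b e) (K.dir e) - c * s.r (K.b e)) hm2 le_rfl hσ hσx ht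
  refine ⟨zG s c e (K.w (K.b e) (K.dir e) - c * s.r (K.b e)) σ, ?_, ?_, ?_, fun t ht => ?_⟩
  · have h1 := hseg 1 ⟨one_pos, le_rfl⟩
    rw [one_smul, add_sub_cancel] at h1
    exact (foot_b hc C h1.1 (zG_dir s e _ σ)).1
  · have h1 := hseg 1 ⟨one_pos, le_rfl⟩
    rw [one_smul, add_sub_cancel] at h1
    exact (foot_b hc C h1.1 (zG_dir s e _ σ)).2
  · have h1 := hseg 1 ⟨one_pos, le_rfl⟩
    rw [one_smul, add_sub_cancel] at h1
    exact h1.2.1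
  · obtain ⟨a1, a2, a3⟩ := hseg t ht
    refine Sp_stub_b C a1 ?_ a2
    rw [a3]
    nlinarith [ht.1, ht.2]

/-- vertex pieces: density -/
theorem V_dense (hc : c ∈ Ioo (1/2:ℝ) 1) (C : CFacts s c) {i : K.W} {p : K.T}
    (hi : K.w i ∈ K.cube p) : Ep s c p (.inl i) ⊆ closure (Sp s c p (.inl i)) := by
  rintro x ⟨hxF, hxp, hxV⟩
  rcases C.cases_V i x hxV hxF with h | ⟨e, he, h1, h2⟩ | ⟨e, he, h1, h2⟩
  · exact box_closure hc C hi h hxF.2 hxp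
  · obtain ⟨y, -, -, -, hy⟩ := stub_a hc C h1 h2 hxp
    rw [he] at hy
    exact mem_closure_of_half hy
  · obtain ⟨y, -, -, -, hy⟩ := stub_b hc C h1 h2 hxp
    rw [he] at hy
    exact mem_closure_of_half hy

/-- vertex pieces: connectedness -/
theorem V_conn (hc : c ∈ Ioo (1/2:ℝ) 1) (C : CFacts s c) {i : K.W} {p : K.T}
    (hi : K.w i ∈ K.cube p) : IsPathConnected (Sp s c p (.inl i)) := by
  obtain ⟨σ₀, hσ₀⟩ := exists_cor0 (K.lt p) hi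
  obtain ⟨a1, a2, a3⟩ := zV_mem s hc hi (Cor.sub hσ₀)
  refine ⟨zV s c i σ₀, Sp_box C a1 a2 a3, fun {x} hx => ?_⟩
  have hxF := hx.1
  have hxp := ob_sub p hx.2.1
  rcases C.cases_V i x hx.2.2.1 hxF with h | ⟨e, he, h1, h2⟩ | ⟨e, he, h1, h2⟩
  · exact (box_joined hc C hi h hxF.2 hx.2.1 hσ₀).symm
  · obtain ⟨y, b1, b2, b3, hy⟩ := stub_a hc C h1 h2 hxp
    rw [he] at hy b1
    exact ((joinedIn_of_half hx hy).trans (box_joined hc C hi b1 b2 b3 hσ₀)).symm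
  · obtain ⟨y, b1, b2, b3, hy⟩ := stub_b hc C h1 h2 hxp
    rw [he] at hy b1
    exact ((joinedIn_of_half hx hy).trans (box_joined hc C hi b1 b2 b3 hσ₀)).symm

/-- edge pieces -/
theorem G_seg (hc : c ∈ Ioo (1/2:ℝ) 1) (C : CFacts s c) {e : K.G} {p : K.T} {x : V}
    (hx : x ∈ side s c e) (hx1 : s.ca e ≤ x (K.dir e)) (hx2 : x (K.dir e) ≤ s.cb e)
    (hxp : x ∈ K.cube p) :
    ∃ σ ∈ Cor (K.w (K.a e)) (K.lo p) (K.hi p), ∀ t ∈ Ioc (0:ℝ) 1,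
      x + t • (zG s c e ((s.ca e + s.cb e) / 2) σ - x) ∈ Sp s c p (.inr e) := by
  obtain ⟨σ, hσ, hσx⟩ := exists_cor (w := K.w (K.a e)) (K.lt p) hxp
  have h1 := ca_low (s := s) hc e
  have h2 := cb_high (s := s) hc e
  have h3 := C.ca_cb e
  refine ⟨σ, hσ, fun t ht => ?_⟩
  obtain ⟨a1, a2, a3⟩ := segG s hc hx hxp (m := (s.ca e + s.cb e) / 2) (by linarith) (by linarith)
    hσ hσx ht
  refine Sp_mid C a1 ?_ ?_ a2
  · rw [a3]
    nlinarith [ht.1, ht.2]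
  · rw [a3]
    nlinarith [ht.1, ht.2]

theorem G_dense (hc : c ∈ Ioo (1/2:ℝ) 1) (C : CFacts s c) {e : K.G} {p : K.T} :
    Ep s c p (.inr e) ⊆ closure (Sp s c p (.inr e)) := by
  rintro x ⟨hxF, hxp, hxG⟩
  obtain ⟨σ, -, h⟩ := G_seg hc C (C.cases_G e x hxG hxF) hxG.2.1 hxG.2.2 hxp
  exact mem_closure_of_half h

theorem G_conn (hc : c ∈ Ioo (1/2:ℝ) 1) (C : CFacts s c) {e : K.G} {p : K.T}
    (hv : ∃ x, x ∈ side s c e ∧ x ∈ K.cube p) : IsPathConnected (Sp s c p (.inr e)) := by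
  obtain ⟨x₀, hx₀, hx₀p⟩ := hv
  obtain ⟨hep, hM⟩ := margins s hc hx₀ hx₀p
  obtain ⟨σ₀, hσ₀, -⟩ := exists_cor (w := K.w (K.a e)) (K.lt p) hx₀p
  have h1 := ca_low (s := s) hc e
  have h2 := cb_high (s := s) hc e
  have h3 := C.ca_cb e
  have hz : ∀ τ ∈ Edg (K.w (K.a e)) (K.lo p) (K.hi p),
      zG s c e ((s.ca e + s.cb e) / 2) τ ∈ Sp s c p (.inr e) := by
    intro τ hτ
    obtain ⟨a1, a2⟩ := zG_mem s hc hep hM (m := (s.ca e + s.cb e) / 2) (by linarith)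
      (by linarith) hτ
    exact Sp_mid C a1 (by rw [zG_dir]; linarith) (by rw [zG_dir]; linarith) a2
  refine ⟨_, hz σ₀ (Cor.sub hσ₀), fun {x} hx => ?_⟩
  have hxG : x ∈ s.RG c e := hx.2.2.1
  obtain ⟨σ, hσ, h⟩ := G_seg hc C (C.cases_G e x hxG hx.1) hxG.2.1 hxG.2.2 (ob_sub p hx.2.1)
  exact ((joinedIn_of_half hx h).trans (joined_image (zG_cont s e _) hz (Cor.joined hσ hσ₀))).symm

end P073.TME779
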