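import Vale.Agent.P073.PA691.TMSpec

/-!
# P073, block TM-E: the pieces of the frontier `F` of the neighbourhood of the graph

Statements of the combinatorial part.
-/

open Set Metric Topology Filter

namespace P073.TME779

open P073 PR720 PA691
open Vale.Agent.P073.St (V IsInv)

variable {Λ : Set V} {v : V} {K : BoxCx Λ v} (s : K.Sizes) (c : ℝ)

/-- the open tile -/
def ob (K : BoxCx Λ v) (p : K.T) : Set V := {x | ∀ k, K.lo p k < x k ∧ x k < K.hi p k}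

/-- the side of the beam between the two boxes -/
def side (e : K.G) : Set V :=
  {x | x ∈ s.beam c e ∧ x ∉ K.nbo e (c * s.q e) ∧
    K.w (K.a e) (K.dir e) + c * s.r (K.a e) ≤ x (K.dir e) ∧
    x (K.dir e) ≤ K.w (K.b e) (K.dir e) - c * s.r (K.b e)}

/-- facts about the cells (combinatorial part) -/
structure CFacts : Prop where
  ob_cube : ∀ p p' x, x ∈ ob K p → x ∈ K.cube p' → p' = p
  VV : ∀ i i' x, x ∈ s.RV c i → x ∈ s.RV c i' → i' = i
  GG : ∀ e e' x, x ∈ s.RG c e → x ∈ s.RG c e' → e' = e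
  box_G : ∀ i e x, x ∈ s.box c i → x ∉ s.RG c e
  side_G : ∀ e e' x, x ∈ side s c e → x ∈ s.RG c e' → e' = e
  mid_V : ∀ e i x, x ∈ s.RG c e → s.ca e < x (K.dir e) → x (K.dir e) < s.cb e → x ∉ s.RV c i
  ca_cb : ∀ e, s.ca e < s.cb e
  side_F : ∀ e, side s c e ⊆ s.F c
  side_tile : ∀ e p x, x ∈ side s c e → x ∈ K.cube p → K.edge e ⊆ K.cube p
  cases_V : ∀ i x, x ∈ s.RV c i → x ∈ s.F c → x ∈ s.box c i ∨
    (∃ e, K.a e = i ∧ x ∈ side s c e ∧ x (K.dir e) ≤ s.ca e) ∨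
    ∃ e, K.b e = i ∧ x ∈ side s c e ∧ s.cb e ≤ x (K.dir e)
  cases_G : ∀ e x, x ∈ s.RG c e → x ∈ s.F c → x ∈ side s c e
  cases_H : ∀ x, x ∈ s.H c → (∃ i, x ∈ s.RV c i) ∨ ∃ e, x ∈ s.RG c e
  /-- the points of the curves `ζ` are in two cells of the same kind -/
  off : ∀ d, ∀ y ∈ s.ζ c d,
    (∃ p p', p ≠ p' ∧ s.par c d y ∈ K.cube p ∧ s.par c d y ∈ K.cube p') ∨
    ∃ e i, s.par c d y ∈ s.RG c e ∧ s.par c d y ∈ s.RV c i

/-- (helper644) -/
def SpecC : Prop :=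
  ∀ (Λ : Set V) (v : V) (K : BoxCx Λ v) (s : K.Sizes) (c : ℝ), c ∈ Ioo (1/2:ℝ) 1 → CFacts s c

end P073.TME779
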