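import Vale.Agent.P073.TME779.Main
import Vale.Agent.P073.TME779.C

/-!
# P073, block TM-E
-/

namespace P073.TME779

open PA691

/-- **TM-E** -/
theorem specPieces : BoxCx.SpecPieces := specPieces_of specC

end P073.TME779
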