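import Vale.Agent.P073.TME779.VSeg

/-!
# P073, block TM-E: segments in the sides of the beams
-/

open Set Metric Topology Filter

namespace P073.TME779

open P073 PR720 PA691
open Vale.Agent.P073.St (V IsInv)

variable {Λ : Set V} {v : V} {K : BoxCx Λ v} (s : K.Sizes) {c : ℝ}

theorem coord {σ a ρ t : ℝ} (hσ : σ = 1 ∨ σ = -1) (h0 : 0 ≤ σ * a) (ha : |a| ≤ ρ) (hρ : 0 < ρ)
    (ht : t ∈ Ioc (0:ℝ) 1) :
    |(1 - t) * a + t * (ρ * σ)| ≤ ρ ∧ 0 < σ * ((1 - t) * a + t * (ρ * σ)) ∧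
      (|a| = ρ → (1 - t) * a + t * (ρ * σ) = a) := by
  have ht1 : 0 ≤ 1 - t := sub_nonneg.2 ht.2
  have htρ : 0 < t * ρ := mul_pos ht.1 hρ
  rcases hσ with e | e <;> subst e
  · have ha0 : 0 ≤ a := by linarith
    have h1 : |a| = a := abs_of_nonneg ha0
    have h2 : 0 ≤ (1 - t) * a := mul_nonneg ht1 ha0
    refine ⟨?_, by nlinarith, fun h => ?_⟩
    · rw [abs_of_nonneg (by nlinarith)]
      rw [h1] at ha
      nlinarith
    · rw [h1] at h
      rw [h]
      ring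
  · have ha0 : a ≤ 0 := by linarith
    have h1 : |a| = -a := abs_of_nonpos ha0
    have h2 : (1 - t) * a ≤ 0 := mul_nonpos_of_nonneg_of_nonpos ht1 ha0
    refine ⟨?_, by nlinarith, fun h => ?_⟩
    · rw [abs_of_nonpos (by nlinarith)]
      rw [h1] at ha
      nlinarith
    · rw [h1] at h
      have : a = -ρ := by linarith
      rw [this]
      ring

theorem side_nb (hc : c ∈ Ioo (1/2:ℝ) 1) {e : K.G} {x : V} (hx : x ∈ side s c e) :
    x ∈ K.nb e (2 * s.q e) := by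
  intro k
  have h1 := hx.1 k
  have h2 := q_pos s e
  have h3 : c * s.q e ≤ 2 * s.q e := by nlinarith [hc.2]
  constructor <;> linarith [h1.1, h1.2]

theorem margins (hc : c ∈ Ioo (1/2:ℝ) 1) {e : K.G} {p : K.T} {x : V} (hx : x ∈ side s c e)
    (hp : x ∈ K.cube p) :
    K.edge e ⊆ K.cube p ∧ ∀ k, k ≠ K.dir e →
      (K.w (K.a e) k ≠ K.lo p k → K.lo p k < K.w (K.a e) k - 2 * s.q e) ∧
      (K.w (K.a e) k ≠ K.hi p k → K.w (K.a e) k + 2 * s.q e < K.hi p k) := by
  refine s.tube_tile e p x (side_nb s hc hx) hp (fun h => ?_) fun h => ?_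
  · have hr := r_pos s (K.a e)
    rw [mem_ball, dist_pi_lt_iff (by positivity)] at h
    have h1 := h (K.dir e)
    rw [Real.dist_eq, abs_lt] at h1
    have h2 := hx.2.2.1
    nlinarith [hc.1, h1.2]
  · have hr := r_pos s (K.b e)
    rw [mem_ball, dist_pi_lt_iff (by positivity)] at h
    have h1 := h (K.dir e)
    rw [Real.dist_eq, abs_lt] at h1
    have h2 := hx.2.2.2
    nlinarith [hc.1, h1.1]

/-- the corner of the cross section at height `m` -/
noncomputable def zG (s : K.Sizes) (c : ℝ) (e : K.G) (m : ℝ) (σ : V) : V :=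
  Function.update (K.w (K.a e) + (c * s.q e) • σ) (K.dir e) m

theorem zG_dir (e : K.G) (m : ℝ) (σ : V) : zG s c e m σ (K.dir e) = m := by
  rw [zG, Function.update_self]

theorem zG_ne (e : K.G) (m : ℝ) (σ : V) {k : Fin 3} (hk : k ≠ K.dir e) :
    zG s c e m σ k = K.w (K.a e) k + c * s.q e * σ k := by
  rw [zG, Function.update_of_ne hk]
  rfl

theorem zG_cont (e : K.G) (m : ℝ) : Continuous (zG s c e m) := by
  unfold zG
  exact (by fun_prop : Continuous fun σ : V => K.w (K.a e) + (c * s.q e) • σ).update (K.dir e)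
    continuous_const

/-- points of the beam between the boxes with an extremal coordinate are in the side -/
theorem side_of (e : K.G) {x : V} (hd1 : K.w (K.a e) (K.dir e) + c * s.r (K.a e) ≤ x (K.dir e))
    (hd2 : x (K.dir e) ≤ K.w (K.b e) (K.dir e) - c * s.r (K.b e)) (hc : c ∈ Ioo (1/2:ℝ) 1)
    (h : ∀ k, k ≠ K.dir e → |x k - K.w (K.a e) k| ≤ c * s.q e)
    {k : Fin 3} (hk : k ≠ K.dir e) (hk' : |x k - K.w (K.a e) k| = c * s.q e) :
    x ∈ side s c e := by
  have hc0 : 0 < c := by linarith [hc.1]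
  have hq := q_pos s e
  have hcq : 0 < c * s.q e := mul_pos hc0 hq
  have ha := mul_pos hc0 (r_pos s (K.a e))
  have hb := mul_pos hc0 (r_pos s (K.b e))
  refine ⟨fun m => ?_, fun h1 => ?_, hd1, hd2⟩
  · by_cases hm : m = K.dir e
    · rw [hm]
      constructor <;> linarith
    · have h2 := abs_le.1 (h m hm)
      have h4 : K.w (K.a e) m = K.w (K.b e) m := K.ab_off e m hm
      constructor <;> linarith [h2.1, h2.2]
  · have h2 := h1 k
    have h4 : K.w (K.a e) k = K.w (K.b e) k := K.ab_off e k hk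
    have h5 : |x k - K.w (K.a e) k| < c * s.q e := by
      rw [abs_lt]
      constructor <;> linarith [h2.1, h2.2]
    linarith

theorem side_abs {e : K.G} {x : V} (hx : x ∈ side s c e) {k : Fin 3} (hk : k ≠ K.dir e) :
    |x k - K.w (K.a e) k| ≤ c * s.q e := by
  have h2 := hx.1 k
  have h4 : K.w (K.a e) k = K.w (K.b e) k := K.ab_off e k hk
  rw [abs_le]
  constructor <;> linarith [h2.1, h2.2]

theorem side_ext (hc : c ∈ Ioo (1/2:ℝ) 1) {e : K.G} {x : V} (hx : x ∈ side s c e) :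
    ∃ k, k ≠ K.dir e ∧ |x k - K.w (K.a e) k| = c * s.q e := by
  have hc0 : 0 < c := by linarith [hc.1]
  have hcq : 0 < c * s.q e := mul_pos hc0 (q_pos s e)
  have ha := mul_pos hc0 (r_pos s (K.a e))
  have hb := mul_pos hc0 (r_pos s (K.b e))
  by_contra hne
  push Not at hne
  refine hx.2.1 fun k => ?_
  by_cases hk : k = K.dir e
  · rw [hk]
    have h1 := hx.2.2.1
    have h2 := hx.2.2.2
    constructor <;> linarith
  · have h1 := lt_of_le_of_ne (side_abs s hx hk) (hne k hk)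
    have h4 : K.w (K.a e) k = K.w (K.b e) k := K.ab_off e k hk
    rw [abs_lt] at h1
    constructor <;> linarith [h1.1, h1.2]

theorem ob_of_side {e : K.G} {p : K.T} (hep : K.edge e ⊆ K.cube p)
    (hM : ∀ k, k ≠ K.dir e →
      (K.w (K.a e) k ≠ K.lo p k → K.lo p k < K.w (K.a e) k - 2 * s.q e) ∧
      (K.w (K.a e) k ≠ K.hi p k → K.w (K.a e) k + 2 * s.q e < K.hi p k))
    {x : V} (hd1 : K.w (K.a e) (K.dir e) < x (K.dir e))
    (hd2 : x (K.dir e) < K.w (K.b e) (K.dir e))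
    (h : ∀ k, k ≠ K.dir e → |x k - K.w (K.a e) k| ≤ 2 * s.q e)
    (hs : ∀ k, k ≠ K.dir e → (K.w (K.a e) k = K.lo p k → K.w (K.a e) k < x k) ∧
      (K.w (K.a e) k = K.hi p k → x k < K.w (K.a e) k)) :
    x ∈ ob K p := by
  have hab : K.w (K.a e) ≤ K.w (K.b e) := by
    intro k
    by_cases hk : k = K.dir e
    · rw [hk]
      exact (K.ab_dir e).le
    · exact (K.ab_off e k hk).le
  intro k
  by_cases hk : k = K.dir e
  · have h1 : K.w (K.a e) ∈ K.cube p := hep ⟨le_rfl, hab⟩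
    have h2 : K.w (K.b e) ∈ K.cube p := hep ⟨hab, le_rfl⟩
    have h3 := h1.1 (K.dir e)
    have h4 := h2.2 (K.dir e)
    rw [hk]
    constructor <;> linarith
  · have h2 := abs_le.1 (h k hk)
    constructor
    · by_cases e1 : K.w (K.a e) k = K.lo p k
      · have := (hs k hk).1 e1
        linarith
      · have := (hM k hk).1 e1
        linarith [h2.1]
    · by_cases e1 : K.w (K.a e) k = K.hi p k
      · have := (hs k hk).2 e1
        linarith
      · have := (hM k hk).2 e1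
        linarith [h2.2]

theorem zG_mem (hc : c ∈ Ioo (1/2:ℝ) 1) {e : K.G} {p : K.T} (hep : K.edge e ⊆ K.cube p)
    (hM : ∀ k, k ≠ K.dir e →
      (K.w (K.a e) k ≠ K.lo p k → K.lo p k < K.w (K.a e) k - 2 * s.q e) ∧
      (K.w (K.a e) k ≠ K.hi p k → K.w (K.a e) k + 2 * s.q e < K.hi p k))
    {m : ℝ} (hm1 : K.w (K.a e) (K.dir e) + c * s.r (K.a e) ≤ m)
    (hm2 : m ≤ K.w (K.b e) (K.dir e) - c * s.r (K.b e)) {σ : V}
    (hσ : σ ∈ Edg (K.w (K.a e)) (K.lo p) (K.hi p)) :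
    zG s c e m σ ∈ side s c e ∧ zG s c e m σ ∈ ob K p := by
  have hc0 : 0 < c := by linarith [hc.1]
  have hq := q_pos s e
  have hcq : 0 < c * s.q e := mul_pos hc0 hq
  have ha := mul_pos hc0 (r_pos s (K.a e))
  have hb := mul_pos hc0 (r_pos s (K.b e))
  have h1 : ∀ k, k ≠ K.dir e → |zG s c e m σ k - K.w (K.a e) k| = c * s.q e * |σ k| := by
    intro k hk
    rw [zG_ne s e m σ hk, add_sub_cancel_left, abs_mul, abs_of_pos hcq]
  have h2 : ∀ k, k ≠ K.dir e → |zG s c e m σ k - K.w (K.a e) k| ≤ c * s.q e := by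
    intro k hk
    rw [h1 k hk]
    nlinarith [(hσ.1 k).1]
  obtain ⟨k, hk⟩ := hσ.2
  have h3' : ∀ k d : Fin 3, ∃ m, m ≠ k ∧ m ≠ d := by decide
  obtain ⟨j, hj, hj'⟩ := h3' k (K.dir e)
  refine ⟨side_of s e (by rwa [zG_dir]) (by rwa [zG_dir]) hc h2 hj'
    (by rw [h1 j hj', hk j hj, mul_one]), ?_⟩
  refine ob_of_side s hep hM (by rw [zG_dir]; linarith) (by rw [zG_dir]; linarith)
    (fun k hk => (h2 k hk).trans (by nlinarith [hc.2])) fun k hk => ⟨fun e1 => ?_, fun e1 => ?_⟩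
  · rw [zG_ne s e m σ hk, (hσ.1 k).2.1 e1]
    linarith
  · rw [zG_ne s e m σ hk, (hσ.1 k).2.2 e1]
    linarith

/-- the segments to the corners of the cross section -/
theorem segG (hc : c ∈ Ioo (1/2:ℝ) 1) {e : K.G} {p : K.T} {x : V} (hx : x ∈ side s c e)
    (hp : x ∈ K.cube p) {m : ℝ} (hm1 : K.w (K.a e) (K.dir e) + c * s.r (K.a e) ≤ m)
    (hm2 : m ≤ K.w (K.b e) (K.dir e) - c * s.r (K.b e)) {σ : V}
    (hσ : σ ∈ Cor (K.w (K.a e)) (K.lo p) (K.hi p))
    (hσx : ∀ k, 0 ≤ σ k * (x k - K.w (K.a e) k)) {t : ℝ} (ht : t ∈ Ioc (0:ℝ) 1) :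
    x + t • (zG s c e m σ - x) ∈ side s c e ∧ x + t • (zG s c e m σ - x) ∈ ob K p ∧
      (x + t • (zG s c e m σ - x)) (K.dir e) = x (K.dir e) + t * (m - x (K.dir e)) := by
  have hc0 : 0 < c := by linarith [hc.1]
  have hq := q_pos s e
  have hcq : 0 < c * s.q e := mul_pos hc0 hq
  have ha := mul_pos hc0 (r_pos s (K.a e))
  have hb := mul_pos hc0 (r_pos s (K.b e))
  obtain ⟨hep, hM⟩ := margins s hc hx hp
  have hdir : (x + t • (zG s c e m σ - x)) (K.dir e) = x (K.dir e) + t * (m - x (K.dir e)) := by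
    simp only [Pi.add_apply, Pi.smul_apply, Pi.sub_apply, smul_eq_mul, zG_dir]
  have hco : ∀ k, k ≠ K.dir e → (x + t • (zG s c e m σ - x)) k - K.w (K.a e) k =
      (1 - t) * (x k - K.w (K.a e) k) + t * (c * s.q e * σ k) := by
    intro k hk
    simp only [Pi.add_apply, Pi.smul_apply, Pi.sub_apply, smul_eq_mul, zG_ne s e m σ hk]
    ring
  set y := x + t • (zG s c e m σ - x) with hy
  have hcoord : ∀ k, k ≠ K.dir e → |y k - K.w (K.a e) k| ≤ c * s.q e ∧
      0 < σ k * (y k - K.w (K.a e) k) ∧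
      (|x k - K.w (K.a e) k| = c * s.q e → |y k - K.w (K.a e) k| = c * s.q e) := by
    intro k hk
    obtain ⟨h1, h2, h3⟩ := coord (hσ k).1 (hσx k) (side_abs s hx hk) hcq ht
    rw [← hco k hk] at h1 h2 h3
    exact ⟨h1, h2, fun h => by rw [h3 h, h]⟩
  obtain ⟨j, hj, hj'⟩ := side_ext s hc hx
  have hx1 := hx.2.2.1
  have hx2 := hx.2.2.2
  have hd1 : K.w (K.a e) (K.dir e) + c * s.r (K.a e) ≤ y (K.dir e) := by
    rw [hdir]
    nlinarith [ht.1, ht.2]
  have hd2 : y (K.dir e) ≤ K.w (K.b e) (K.dir e) - c * s.r (K.b e) := by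
    rw [hdir]
    nlinarith [ht.1, ht.2]
  refine ⟨side_of s e hd1 hd2 hc (fun k hk => (hcoord k hk).1) hj ((hcoord j hj).2.2 hj'), ?_, hdir⟩
  refine ob_of_side s hep hM (by linarith) (by linarith)
    (fun k hk => (hcoord k hk).1.trans (by nlinarith [hc.2])) fun k hk => ⟨fun e1 => ?_, fun e1 => ?_⟩
  · have h1 := (hcoord k hk).2.1
    rw [(hσ k).2.1 e1] at h1
    linarith
  · have h1 := (hcoord k hk).2.1
    rw [(hσ k).2.2 e1] at h1
    linarith

end P073.TME779
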