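import Vale.Agent.P073.TME779.Conn

/-!
# P073, block TM-E: the pieces of `F`
-/

open Set Metric Topology Filter

namespace P073.TME779

open P073 PR720 PA691
open Vale.Agent.P073.St (V IsInv)

variable {Λ : Set V} {v : V} {K : BoxCx Λ v} {s : K.Sizes} {c : ℝ}

/-- for the points of `F`, the frontier of a cell is the cell -/
theorem fr_iff (B : s.BasicFacts c) {x : V} (hx : x ∈ s.F c) (j : K.T ⊕ K.W ⊕ K.G) :
    x ∈ frontier (s.R c j) ↔ x ∈ s.R c j := by
  rcases j with p | i | e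
  · change x ∈ frontier (s.RT c p) ↔ x ∈ s.RT c p
    rw [B.frT]
    exact ⟨fun h => h.1, fun h => ⟨h, Or.inl hx⟩⟩
  · change x ∈ frontier (s.RV c i) ↔ x ∈ s.RV c i
    rw [B.frV]
    exact ⟨fun h => h.1, fun h => ⟨h, Or.inl hx⟩⟩
  · change x ∈ frontier (s.RG c e) ↔ x ∈ s.RG c e
    rw [B.frG]
    exact ⟨fun h => h.1, fun h => ⟨h, Or.inl hx⟩⟩

theorem R_inr (j : K.W ⊕ K.G) : s.R c (.inr j) = Rc s c j := rfl

theorem mem_RT (p : K.T) {x : V} (hx : x ∈ s.F c) : x ∈ s.R c (.inl p) ↔ x ∈ K.cube p := by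
  change x ∈ K.cube p \ s.Hin c ↔ _
  exact ⟨fun h => h.1, fun h => ⟨h, hx.2⟩⟩

theorem valid_of (hc : c ∈ Ioo (1/2:ℝ) 1) (C : CFacts s c) {p : K.T} {j : K.W ⊕ K.G} {x : V}
    (h : x ∈ Ep s c p j) : Valid s c p j := by
  obtain ⟨hF, hp, hj⟩ := h
  rcases j with i | e
  · have hw : ∀ e, K.edge e ⊆ K.cube p → K.w (K.a e) ∈ K.cube p ∧ K.w (K.b e) ∈ K.cube p := by
      intro e he
      have hab : K.w (K.a e) ≤ K.w (K.b e) := by
        intro k
        by_cases hk : k = K.dir e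
        · rw [hk]
          exact (K.ab_dir e).le
        · exact (K.ab_off e k hk).le
      exact ⟨he ⟨le_rfl, hab⟩, he ⟨hab, le_rfl⟩⟩
    rcases C.cases_V i x hj hF with h | ⟨e, he, h1, -⟩ | ⟨e, he, h1, -⟩
    · refine (s.U_tile i p x ?_ hp).1
      refine closedBall_subset_closedBall ?_ h
      nlinarith [hc.2, r_pos s i]
    · have := (hw e (C.side_tile e p x h1 hp)).1
      rwa [he] at this
    · have := (hw e (C.side_tile e p x h1 hp)).2
      rwa [he] at this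
  · exact ⟨x, C.cases_G e x hj hF, hp⟩

theorem pc_of (hc : c ∈ Ioo (1/2:ℝ) 1) (C : CFacts s c) {p : K.T} {j : K.W ⊕ K.G}
    (h : Valid s c p j) : IsPathConnected (Sp s c p j) := by
  rcases j with i | e
  · exact V_conn hc C h
  · exact G_conn hc C h

theorem dense_of (hc : c ∈ Ioo (1/2:ℝ) 1) (C : CFacts s c) {p : K.T} {j : K.W ⊕ K.G}
    (h : Valid s c p j) : Ep s c p j ⊆ closure (Sp s c p j) := by
  rcases j with i | e
  · exact V_dense hc C h
  · exact G_dense hc C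

theorem pieceFacts (hc : c ∈ Ioo (1/2:ℝ) 1) (C : CFacts s c) (B : s.BasicFacts c) :
    s.PieceFacts c := by
  let AF : Type := {a : K.T × (K.W ⊕ K.G) // Valid s c a.1 a.2}
  let E : AF → Set V := fun a => Ep s c a.1.1 a.1.2
  let S : AF → Set V := fun a => Sp s c a.1.1 a.1.2
  have hSE : ∀ a, E a \ (E a \ S a) = S a := fun a => by
    rw [sdiff_sdiff_cancel_left (Sp_sub s c _ _)]
  have hET : ∀ a : AF, E a ⊆ frontier (s.R c (.inl a.1.1)) := fun a x hx =>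
    (fr_iff B hx.1 _).2 ((mem_RT _ hx.1).2 hx.2.1)
  have hEC : ∀ a : AF, E a ⊆ frontier (s.R c (.inr a.1.2)) := fun a x hx =>
    (fr_iff B hx.1 _).2 hx.2.2
  refine ⟨AF, E, fun a => E a \ S a, fun a x hx => hx.1, ?_, fun a => ?_, fun a => ?_, ?_,
    fun a => ⟨_, hET a⟩, ?_, ?_⟩
  · -- local finiteness
    intro z hz
    obtain ⟨U₁, hU₁, h1⟩ := K.lfT z hz
    obtain ⟨U₂, hU₂, h2⟩ := B.lf z hz
    refine ⟨U₁ ∩ U₂, inter_mem hU₁ hU₂, ?_⟩
    have h3 : {j : K.W ⊕ K.G | (s.R c (.inr j) ∩ U₂).Nonempty}.Finite := by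
      refine Set.Finite.preimage (f := Sum.inr) (Sum.inr_injective.injOn) h2
    refine Set.Finite.subset (Set.Finite.preimage (f := fun a : AF => a.1)
      (Subtype.val_injective.injOn) (h1.prod h3)) ?_
    rintro a ⟨x, hx, hxU⟩
    exact ⟨⟨x, hx.2.1, hxU.1⟩, ⟨x, hx.2.2, hxU.2⟩⟩
  · rw [hSE]
    exact (pc_of hc C a.2).isConnected.isPreconnected
  · rw [hSE]
    exact dense_of hc C a.2
  · intro j x hx hF
    rw [fr_iff B hF] at hx
    rcases j with p | j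
    · have hxp := (mem_RT p hF).1 hx
      rcases C.cases_H x hF.1 with ⟨i, hi⟩ | ⟨e, he⟩
      · have h1 : x ∈ Ep s c p (.inl i) := ⟨hF, hxp, hi⟩
        exact ⟨⟨(p, .inl i), valid_of hc C h1⟩, hET ⟨(p, .inl i), valid_of hc C h1⟩, h1⟩
      · have h1 : x ∈ Ep s c p (.inr e) := ⟨hF, hxp, he⟩
        exact ⟨⟨(p, .inr e), valid_of hc C h1⟩, hET ⟨(p, .inr e), valid_of hc C h1⟩, h1⟩
    · obtain ⟨p, hp⟩ := K.cover x (B.H_sub hF.1)
      have h1 : x ∈ Ep s c p j := ⟨hF, hp, hx⟩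
      exact ⟨⟨(p, j), valid_of hc C h1⟩, hEC ⟨(p, j), valid_of hc C h1⟩, h1⟩
  · intro a j hne x hx
    refine ⟨hx.1, fun hS => ?_⟩
    rcases j with p | j
    · have h1 : x ∈ K.cube p := (mem_RT p hx.1.1).1 hx.2
      have h2 := C.ob_cube _ _ x hS.2.1 h1
      subst h2
      exact hne (hET a)
    · by_cases h : j = a.1.2
      · subst h
        exact hne (hEC a)
      · exact hS.2.2.2 j h hx.2
  · intro a
    obtain ⟨q, hq, -⟩ := pc_of hc C a.2
    refine ⟨q, Sp_sub s c _ _ hq, fun h => h.2 hq, fun d hd => ?_⟩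
    obtain ⟨y, hy, rfl⟩ := hd
    rcases C.off d y hy with ⟨p, p', hpp, h1, h2⟩ | ⟨e, i, h1, h2⟩
    · exact hpp ((C.ob_cube _ _ _ hq.2.1 h1).trans (C.ob_cube _ _ _ hq.2.1 h2).symm)
    · have h3 : (Sum.inr e : K.W ⊕ K.G) = a.1.2 := by
        by_contra h
        exact hq.2.2.2 _ h h1
      have h4 : (Sum.inl i : K.W ⊕ K.G) = a.1.2 := by
        by_contra h
        exact hq.2.2.2 _ h h2
      exact absurd (h3.trans h4.symm) (by simp)

/-- the block TM-E from the combinatorial part -/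
theorem specPieces_of (h : SpecC) : BoxCx.SpecPieces := fun Λ v K s c _ _ hc B =>
  pieceFacts hc (h Λ v K s c hc) B

end P073.TME779
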