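import Vale.Agent.P073.TME779.Defs

/-!
# P073, block TM-E: half-open segments and sign vectors
-/

open Set Metric Topology Filter

namespace P073.TME779

open P073 PR720 PA691
open Vale.Agent.P073.St (V IsInv)

theorem mem_closure_of_half {S : Set V} {x y : V}
    (h : ∀ t ∈ Ioc (0:ℝ) 1, x + t • (y - x) ∈ S) : x ∈ closure S := by
  have hc : Continuous (fun t : ℝ => x + t • (y - x)) := by fun_prop
  have h1 : Tendsto (fun t : ℝ => x + t • (y - x)) (𝓝[>] 0) (𝓝 (x + (0:ℝ) • (y - x))) :=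
    (hc.tendsto 0).mono_left nhdsWithin_le_nhds
  rw [zero_smul, add_zero] at h1
  refine mem_closure_of_tendsto h1 ?_
  have h2 : Ioc (0:ℝ) 1 ∈ 𝓝[>] (0:ℝ) := Ioc_mem_nhdsGT one_pos
  exact Filter.mem_of_superset h2 h

theorem joinedIn_of_half {S : Set V} {x y : V} (hx : x ∈ S)
    (h : ∀ t ∈ Ioc (0:ℝ) 1, x + t • (y - x) ∈ S) : JoinedIn S x y := by
  refine JoinedIn.of_segment_subset ?_
  rw [segment_eq_image']
  rintro _ ⟨t, ht, rfl⟩
  rcases eq_or_lt_of_le ht.1 with h0 | h0
  · subst h0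
    simpa using hx
  · exact h t ⟨h0, ht.2⟩

/-- admissible values of a coordinate: `w` is the coordinate of the base point, `l`, `h` are the
coordinates of the tile -/
def Adm (w l h v : ℝ) : Prop := (w = l → v = 1) ∧ (w = h → v = -1)

theorem Adm.convex {w l h v v' t : ℝ} (hv : Adm w l h v) (hv' : Adm w l h v') :
    Adm w l h (v + t * (v' - v)) := by
  constructor
  · intro e
    rw [hv.1 e, hv'.1 e]
    ring
  · intro e
    rw [hv.2 e, hv'.2 e]
    ring

/-- corners -/
def Cor (w l h : V) : Set V := {s | ∀ k, (s k = 1 ∨ s k = -1) ∧ Adm (w k) (l k) (h k) (s k)}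

/-- edges between the corners -/
def Edg (w l h : V) : Set V :=
  {s | (∀ k, |s k| ≤ 1 ∧ Adm (w k) (l k) (h k) (s k)) ∧ ∃ k, ∀ m, m ≠ k → |s m| = 1}

theorem Cor.sub {w l h : V} : Cor w l h ⊆ Edg w l h := by
  intro s hs
  have h1 : ∀ k, |s k| = 1 := by
    intro k
    rcases (hs k).1 with e | e <;> rw [e] <;> simp
  exact ⟨fun k => ⟨(h1 k).le, (hs k).2⟩, 0, fun m _ => h1 m⟩

theorem Cor.update {w l h : V} {s s' : V} (hs : s ∈ Cor w l h) (hs' : s' ∈ Cor w l h) (k : Fin 3) :
    Function.update s k (s' k) ∈ Cor w l h := by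
  intro m
  by_cases e : m = k
  · subst e
    rw [Function.update_self]
    exact hs' m
  · rw [Function.update_of_ne e]
    exact hs m

theorem Cor.step {w l h : V} {s s' : V} (hs : s ∈ Cor w l h) (hs' : s' ∈ Cor w l h) (k : Fin 3) :
    JoinedIn (Edg w l h) s (Function.update s k (s' k)) := by
  refine JoinedIn.of_segment_subset ?_
  rw [segment_eq_image']
  rintro _ ⟨t, ht, rfl⟩
  have h1 : ∀ {v : ℝ}, (v = 1 ∨ v = -1) → |v| = 1 := by
    rintro v (e | e) <;> rw [e] <;> simp
  have hne : ∀ m, m ≠ k → (s + t • (Function.update s k (s' k) - s)) m = s m := by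
    intro m e
    simp [Function.update_of_ne e]
  have hk : (s + t • (Function.update s k (s' k) - s)) k = s k + t * (s' k - s k) := by
    simp
  change s + t • (Function.update s k (s' k) - s) ∈ Edg w l h
  refine ⟨fun m => ?_, k, fun m e => ?_⟩
  · by_cases e : m = k
    · subst e
      rw [hk]
      refine ⟨?_, (hs m).2.convex (hs' m).2⟩
      have a1 := abs_le.1 (h1 (hs m).1).le
      have a2 := abs_le.1 (h1 (hs' m).1).le
      rw [abs_le]
      constructor <;> nlinarith [ht.1, ht.2]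
    · rw [hne m e]
      exact ⟨(h1 (hs m).1).le, (hs m).2⟩
  · rw [hne m e]
    exact h1 (hs m).1

theorem Cor.joined {w l h : V} {s s' : V} (hs : s ∈ Cor w l h) (hs' : s' ∈ Cor w l h) :
    JoinedIn (Edg w l h) s s' := by
  have h1 := Cor.step hs hs' 0
  have hs1 := Cor.update hs hs' 0
  have h2 := Cor.step hs1 hs' 1
  have hs2 := Cor.update hs1 hs' 1
  have h3 := Cor.step hs2 hs' 2
  have e : Function.update (Function.update (Function.update s 0 (s' 0)) 1 (s' 1)) 2 (s' 2) = s' := by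
    funext m
    fin_cases m <;> simp [Function.update]
  rw [e] at h3
  exact (h1.trans h2).trans h3

theorem exists_cor {w l h x : V} (hlh : ∀ k, l k < h k) (hx : x ∈ Icc l h) :
    ∃ s ∈ Cor w l h, ∀ k, 0 ≤ s k * (x k - w k) := by
  have key : ∀ k, ∃ σ : ℝ, ((σ = 1 ∨ σ = -1) ∧ Adm (w k) (l k) (h k) σ) ∧ 0 ≤ σ * (x k - w k) := by
    intro k
    have hxl := hx.1 k
    have hxh := hx.2 k
    have hlt := hlh k
    by_cases e1 : w k = l k
    · refine ⟨1, ⟨Or.inl rfl, fun _ => rfl, fun e2 => ?_⟩, by rw [e1]; linarith⟩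
      exact absurd (e1.symm.trans e2) hlt.ne
    · by_cases e2 : w k = h k
      · exact ⟨-1, ⟨Or.inr rfl, fun e => absurd e e1, fun _ => rfl⟩, by rw [e2]; linarith⟩
      · rcases le_total (w k) (x k) with h3 | h3
        · exact ⟨1, ⟨Or.inl rfl, fun e => absurd e e1, fun e => absurd e e2⟩, by linarith⟩
        · exact ⟨-1, ⟨Or.inr rfl, fun e => absurd e e1, fun e => absurd e e2⟩, by linarith⟩
  choose s hs using key
  exact ⟨s, fun k => (hs k).1, fun k => (hs k).2⟩

end P073.TME779
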