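import Vale.Agent.P073.TME779.Seg

/-!
# P073, block TM-E: segments in the boundaries of the cubes
-/

open Set Metric Topology Filter

namespace P073.TME779

open P073 PR720 PA691
open Vale.Agent.P073.St (V IsInv)

variable {Λ : Set V} {v : V} {K : BoxCx Λ v} (s : K.Sizes) {c : ℝ}

theorem r_pos (i : K.W) : 0 < s.r i := by
  obtain ⟨n, hn⟩ := s.r_dy i
  rw [hn]
  positivity

theorem q_pos (e : K.G) : 0 < s.q e := by
  obtain ⟨n, hn⟩ := s.q_dy e
  rw [hn]
  positivity

theorem mem_box_iff (hc : 0 < c) (i : K.W) (x : V) :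
    x ∈ s.box c i ↔ ∀ k, |x k - K.w i k| ≤ c * s.r i := by
  rw [BoxCx.Sizes.box, mem_closedBall, dist_pi_le_iff (mul_nonneg hc.le (r_pos s i).le)]
  simp only [Real.dist_eq]

theorem mem_ball_iff' (hc : 0 < c) (i : K.W) (x : V) :
    x ∈ ball (K.w i) (c * s.r i) ↔ ∀ k, |x k - K.w i k| < c * s.r i := by
  rw [mem_ball, dist_pi_lt_iff (mul_pos hc (r_pos s i))]
  simp only [Real.dist_eq]

theorem mem_cb2 (i : K.W) (x : V) (h : ∀ k, |x k - K.w i k| ≤ 2 * s.r i) :
    x ∈ closedBall (K.w i) (2 * s.r i) := by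
  rw [mem_closedBall, dist_pi_le_iff (mul_nonneg (by norm_num) (r_pos s i).le)]
  simpa only [Real.dist_eq] using h

/-- a point near the vertex is in the open tile if its coordinates are on the right sides -/
theorem ob_of_near {i : K.W} {p : K.T} (hi : K.w i ∈ K.cube p) {x : V}
    (h : ∀ k, |x k - K.w i k| ≤ 2 * s.r i)
    (hs : ∀ k, (K.w i k = K.lo p k → K.w i k < x k) ∧ (K.w i k = K.hi p k → x k < K.w i k)) :
    x ∈ ob K p := by
  have h1 := (s.U_tile i p (K.w i) (mem_closedBall_self
    (mul_nonneg (by norm_num) (r_pos s i).le)) hi).2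
  intro k
  have h2 := abs_le.1 (h k)
  constructor
  · by_cases e : K.w i k = K.lo p k
    · have := (hs k).1 e
      linarith
    · have := (h1 k).1 e
      linarith [h2.1]
  · by_cases e : K.w i k = K.hi p k
    · have := (hs k).2 e
      linarith
    · have := (h1 k).2 e
      linarith [h2.2]

theorem notin_Hin_iff (hc : c ∈ Ioo (1/2:ℝ) 1) {i : K.W} {x : V} (hx : x ∈ s.box c i) :
    x ∉ s.Hin c ↔ x ∉ ball (K.w i) (c * s.r i) ∧
      ∀ e, (i = K.a e ∨ i = K.b e) → x ∉ K.nbo e (c * s.q e) := by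
  have hc0 : 0 < c := by linarith [hc.1]
  constructor
  · intro h
    refine ⟨fun h1 => h (Or.inl (mem_iUnion.2 ⟨i, h1⟩)), fun e _ h1 => h (Or.inr (mem_iUnion.2 ⟨e, h1⟩))⟩
  · rintro ⟨h1, h2⟩ h3
    have hx2 : x ∈ closedBall (K.w i) (2 * s.r i) := by
      refine closedBall_subset_closedBall ?_ hx
      nlinarith [hc.2, r_pos s i]
    rcases h3 with h3 | h3
    · obtain ⟨i', hi'⟩ := mem_iUnion.1 h3
      by_cases e : i = i'
      · subst e
        exact h1 hi'
      · refine (s.U_disj i i' e).le_bot ⟨hx2, ?_⟩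
        refine ball_subset_closedBall.trans (closedBall_subset_closedBall ?_) hi'
        nlinarith [hc.2, r_pos s i']
    · obtain ⟨e, he⟩ := mem_iUnion.1 h3
      refine h2 e (s.U_edge i e x hx2 fun k => ?_) he
      have h4 := he k
      have h5 := q_pos s e
      have h6 : c * s.q e ≤ 2 * s.q e := by nlinarith [hc.2]
      constructor <;> linarith [h4.1, h4.2]

/-- if a point of the sphere has two coordinates at distance `c r i` of the vertex, it is not
in `Hin` -/
theorem notin_Hin_of_two (hc : c ∈ Ioo (1/2:ℝ) 1) {i : K.W} {x : V} (hx : x ∈ s.box c i)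
    {k : Fin 3} (h : ∀ m, m ≠ k → |x m - K.w i m| = c * s.r i) : x ∉ s.Hin c := by
  have hc0 : 0 < c := by linarith [hc.1]
  rw [notin_Hin_iff s hc hx]
  refine ⟨fun h1 => ?_, fun e he h1 => ?_⟩
  · rw [mem_ball_iff' s hc0] at h1
    obtain ⟨m, hm⟩ : ∃ m, m ≠ k := exists_ne k
    have h2 := h1 m
    have h3 := h m hm
    linarith
  · -- a coordinate different from `k` and from the direction of `e`
    have h3' : ∀ k d : Fin 3, ∃ m, m ≠ k ∧ m ≠ d := by decide
    obtain ⟨m, hm, hm'⟩ := h3' k (K.dir e)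
    have h2 := h1 m
    have h3 := h m hm
    have h4 : K.w (K.a e) m = K.w (K.b e) m := K.ab_off e m hm'
    have h5 : |x m - K.w i m| < c * s.q e := by
      rw [abs_lt]
      rcases he with he | he <;> subst he <;> constructor <;> linarith [h2.1, h2.2]
    have h6 : c * s.q e ≤ c * s.r i := by
      have h7 := s.q_le e
      have h8 := q_pos s e
      have : s.q e ≤ s.r i := by
        rcases he with he | he <;> subst he <;> linarith [h7.1, h7.2]
      nlinarith
    linarith

/-- the corner (or the point of an edge) of the cube -/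
def zV (s : K.Sizes) (c : ℝ) (i : K.W) (σ : V) : V := K.w i + (c * s.r i) • σ

theorem zV_apply (i : K.W) (σ : V) (k : Fin 3) : zV s c i σ k = K.w i k + c * s.r i * σ k := rfl

theorem zV_cont (i : K.W) : Continuous (zV s c i) := by
  unfold zV
  fun_prop

/-- the edges of the cube -/
theorem zV_mem (hc : c ∈ Ioo (1/2:ℝ) 1) {i : K.W} {p : K.T} (hi : K.w i ∈ K.cube p) {σ : V}
    (hσ : σ ∈ Edg (K.w i) (K.lo p) (K.hi p)) :
    zV s c i σ ∈ s.box c i ∧ zV s c i σ ∉ s.Hin c ∧ zV s c i σ ∈ ob K p := by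
  have hc0 : 0 < c := by linarith [hc.1]
  have hr := r_pos s i
  have hcr : 0 < c * s.r i := mul_pos hc0 hr
  have h1 : ∀ k, |zV s c i σ k - K.w i k| = c * s.r i * |σ k| := by
    intro k
    rw [zV_apply, add_sub_cancel_left, abs_mul, abs_of_pos hcr]
  have hb : zV s c i σ ∈ s.box c i := by
    rw [mem_box_iff s hc0]
    intro k
    rw [h1]
    nlinarith [(hσ.1 k).1]
  obtain ⟨k, hk⟩ := hσ.2
  refine ⟨hb, notin_Hin_of_two s hc hb (k := k) fun m hm => by rw [h1, hk m hm, mul_one], ?_⟩
  refine ob_of_near s hi (fun k => ?_) fun k => ⟨fun e => ?_, fun e => ?_⟩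
  · rw [h1]
    nlinarith [(hσ.1 k).1, hc.2]
  · rw [zV_apply, (hσ.1 k).2.1 e]
    linarith
  · rw [zV_apply, (hσ.1 k).2.2 e]
    linarith

/-- the segments to the corners -/
theorem segV (hc : c ∈ Ioo (1/2:ℝ) 1) {i : K.W} {p : K.T} (hi : K.w i ∈ K.cube p) {x : V}
    (hx : x ∈ s.box c i) (hxH : x ∉ s.Hin c) {σ : V}
    (hσ : σ ∈ Cor (K.w i) (K.lo p) (K.hi p)) (hσx : ∀ k, 0 ≤ σ k * (x k - K.w i k))
    {t : ℝ} (ht : t ∈ Ioc (0:ℝ) 1) :
    x + t • (zV s c i σ - x) ∈ s.box c i ∧ x + t • (zV s c i σ - x) ∉ s.Hin c ∧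
      x + t • (zV s c i σ - x) ∈ ob K p := by
  have hc0 : 0 < c := by linarith [hc.1]
  have hr := r_pos s i
  have hcr : 0 < c * s.r i := mul_pos hc0 hr
  have hx' := hx
  rw [mem_box_iff s hc0] at hx'
  set ρ := c * s.r i with hρ
  -- the coordinates, with signs
  have hco : ∀ k, (x + t • (zV s c i σ - x)) k - K.w i k =
      (1 - t) * (x k - K.w i k) + t * (ρ * σ k) := by
    intro k
    simp only [Pi.add_apply, Pi.smul_apply, Pi.sub_apply, smul_eq_mul, zV_apply, ← hρ]
    ring
  set y := x + t • (zV s c i σ - x) with hy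
  have habs : ∀ k (a : ℝ), 0 ≤ σ k * a → |a| = σ k * a := by
    intro k a ha
    rcases (hσ k).1 with e | e <;> rw [e] at ha ⊢
    · rw [one_mul] at ha ⊢
      exact abs_of_nonneg ha
    · rw [neg_one_mul] at ha ⊢
      exact abs_of_nonpos (by linarith)
  have hsq : ∀ k, σ k * σ k = 1 := by
    intro k
    rcases (hσ k).1 with e | e <;> rw [e] <;> norm_num
  have hyk : ∀ k, σ k * (y k - K.w i k) = (1 - t) * (σ k * (x k - K.w i k)) + t * ρ := by
    intro k
    rw [hco]
    linear_combination (t * ρ) * hsq k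
  have hyk0 : ∀ k, 0 < σ k * (y k - K.w i k) := by
    intro k
    rw [hyk]
    have := mul_nonneg (sub_nonneg.2 ht.2) (hσx k)
    have := mul_pos ht.1 hcr
    linarith
  have hxk : ∀ k, σ k * (x k - K.w i k) ≤ ρ := by
    intro k
    rw [← habs k _ (hσx k)]
    exact hx' k
  have hyk1 : ∀ k, |y k - K.w i k| ≤ ρ := by
    intro k
    rw [habs k _ (hyk0 k).le, hyk]
    nlinarith [hxk k, ht.1, ht.2]
  have hmono : ∀ k, |x k - K.w i k| ≤ |y k - K.w i k| := by
    intro k
    rw [habs k _ (hyk0 k).le, habs k _ (hσx k), hyk]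
    nlinarith [hxk k, ht.1, ht.2]
  have hext : ∀ k, |x k - K.w i k| = ρ → y k = x k := by
    intro k hk
    rw [habs k _ (hσx k)] at hk
    have h1 := hyk k
    rw [hk] at h1
    have h2 : σ k * (y k - x k) = 0 := by
      linear_combination h1 - hk
    have h3 : σ k ≠ 0 := by
      intro h0
      have := hsq k
      rw [h0] at this
      norm_num at this
    have := (mul_eq_zero.1 h2).resolve_left h3
    linarith
  have hyb : y ∈ s.box c i := by
    rw [mem_box_iff s hc0]
    exact hyk1
  obtain ⟨hxb, hxe⟩ := (notin_Hin_iff s hc hx).1 hxH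
  -- an extremal coordinate
  obtain ⟨m, hm⟩ : ∃ m, |x m - K.w i m| = ρ := by
    rw [mem_ball_iff' s hc0] at hxb
    push Not at hxb
    obtain ⟨m, hm⟩ := hxb
    exact ⟨m, le_antisymm (hx' m) hm⟩
  refine ⟨hyb, ?_, ?_⟩
  · rw [notin_Hin_iff s hc hyb]
    refine ⟨fun h1 => ?_, fun e he h1 => hxe e he ?_⟩
    · rw [mem_ball_iff' s hc0] at h1
      have h2 := h1 m
      rw [hext m hm] at h2
      linarith
    · have hlt : ∀ k, k ≠ K.dir e → |y k - K.w i k| < c * s.q e := by
        intro k hk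
        have h2 := h1 k
        have h4 : K.w (K.a e) k = K.w (K.b e) k := K.ab_off e k hk
        rw [abs_lt]
        rcases he with he | he <;> subst he <;> constructor <;> linarith [h2.1, h2.2]
      have h6 : c * s.q e ≤ ρ := by
        have h7 := s.q_le e
        have h8 := q_pos s e
        have : s.q e ≤ s.r i := by
          rcases he with he | he <;> subst he <;> linarith [h7.1, h7.2]
        rw [hρ]
        nlinarith
      have hmd : m = K.dir e := by
        by_contra hne
        have h2 := hlt m hne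
        rw [hext m hm] at h2
        linarith
      intro k
      by_cases hk : k = K.dir e
      · have := h1 k
        rwa [hk, ← hmd, hext m hm, hmd, ← hk] at this
      · have h2 := lt_of_le_of_lt (hmono k) (hlt k hk)
        have h4 : K.w (K.a e) k = K.w (K.b e) k := K.ab_off e k hk
        rw [abs_lt] at h2
        rcases he with he | he <;> subst he <;> constructor <;> linarith [h2.1, h2.2]
  · refine ob_of_near s hi (fun k => ?_) fun k => ⟨fun e => ?_, fun e => ?_⟩
    · have := hyk1 k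
      nlinarith [hc.2]
    · have h1 := hyk0 k
      rw [(hσ k).2.1 e] at h1
      linarith
    · have h1 := hyk0 k
      rw [(hσ k).2.2 e] at h1
      linarith

end P073.TME779
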